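import Vale.Agent.P031.Group
import Vale.Agent.P031.Double
import Vale.Agent.P031.Cluster
import Vale.Agent.P031.Mean

namespace Vale.Agent.Results.P031.RatioBounds

open Filter Topology Vale.Agent.P031

/-- Let `V(x)` count the values of Euler's function up to `x`.  For every `c > 1` the number `c` is
a limit point of `V(cx)/V(x)` as `x → ∞`, so the lower limit is at most `c`, the upper limit is at
least `c` and a limit can only be `c`; moreover `V(cx)/V(x) → c` in the logarithmic geometric mean.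
If the limits exist for two values `a, b` with `log a / log b` irrational, then `V(cx)/V(x) → c`
for all `c > 1`; in particular the Erdős-Hall question is equivalent to the existence of the two
limits for `c = 2` and `c = 3`.  The limit exists for `c = 2` iff asymptotically exactly half of the
totient values are not twice a totient value; `1/2` is always a limit point of this proportion. -/
theorem result :
    (∀ c : ℝ, 1 < c →
      MapClusterPt c atTop (fun x : ℝ => (V (c * x) : ℝ) / V x) ∧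
      liminf (fun x : ℝ => (((V (c * x) : ℝ) / V x : ℝ) : EReal)) atTop ≤ (c : EReal) ∧
      (c : EReal) ≤ limsup (fun x : ℝ => (((V (c * x) : ℝ) / V x : ℝ) : EReal)) atTop ∧
      (∀ L : ℝ, Tendsto (fun x : ℝ => (V (c * x) : ℝ) / V x) atTop (𝓝 L) → L = c) ∧
      Tendsto (fun T : ℝ => (∫ t in (0 : ℝ)..T,
        Real.log ((V (c * Real.exp t) : ℝ) / V (Real.exp t))) / T) atTop (𝓝 (Real.log c))) ∧
    (∀ a b : ℝ, 1 < a → 1 < b → Irrational (Real.log a / Real.log b) →
      (∃ L : ℝ, Tendsto (fun x : ℝ => (V (a * x) : ℝ) / V x) atTop (𝓝 L)) →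
      (∃ L : ℝ, Tendsto (fun x : ℝ => (V (b * x) : ℝ) / V x) atTop (𝓝 L)) →
      ∀ c : ℝ, 1 < c → Tendsto (fun x : ℝ => (V (c * x) : ℝ) / V x) atTop (𝓝 c)) ∧
    ((∀ c : ℝ, 1 < c → Tendsto (fun x : ℝ => (V (c * x) : ℝ) / V x) atTop (𝓝 c)) ↔
      (∃ L : ℝ, Tendsto (fun x : ℝ => (V (2 * x) : ℝ) / V x) atTop (𝓝 L)) ∧
      (∃ L : ℝ, Tendsto (fun x : ℝ => (V (3 * x) : ℝ) / V x) atTop (𝓝 L))) ∧
    ((∃ L : ℝ, Tendsto (fun x : ℝ => (V (2 * x) : ℝ) / V x) atTop (𝓝 L)) ↔
      Tendsto (fun x : ℝ => (U x : ℝ) / V x) atTop (𝓝 (1 / 2))) ∧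
    MapClusterPt (1 / 2 : ℝ) atTop (fun x : ℝ => (U x : ℝ) / V x) := by
  refine ⟨fun c hc => ⟨cluster hc, liminf_le hc, le_limsup hc, fun L hL => limit_eq hc hL,
    mean hc⟩, fun a b ha hb hab h1 h2 c hc => two_values ha hb hab h1 h2 (by linarith), ?_,
    double_iff, clusterU⟩
  constructor
  · intro h
    exact ⟨⟨2, h 2 (by norm_num)⟩, ⟨3, h 3 (by norm_num)⟩⟩
  · rintro ⟨h2, h3⟩ c hc
    exact two_values (by norm_num) (by norm_num) irr23 h2 h3 (by linarith)

end Vale.Agent.Results.P031.RatioBounds
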